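import Crest.Agent.X262.Vb.Cfg

/-! # Row 262, road B: Moebius calculus for data (helper37) -/

set_option autoImplicit false
set_option linter.unusedSectionVars false

noncomputable section

namespace Crest.Agent.X262.Vb37

open Crest.Agent.X277 Crest.Agent.X277.BD Polynomial Matrix
open Crest.Agent.X262.Bub96 (hv Tr)
open Crest.Agent.X262.Bub96.Tr (dot)
open Crest.Agent.X262.Vb

section Forms
variable {K L : Type} [Field K] [Field L]

/-- value of a binary form of degree `d` at a vector -/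
def hev (d : ℕ) (f : K[X]) (w : Fin 2 → K) : K :=
  ∑ l ∈ Finset.range (d + 1), f.coeff l * w 0 ^ l * w 1 ^ (d - l)

theorem hev_smul (d : ℕ) (f : K[X]) (u : K) (w : Fin 2 → K) :
    hev d f (u • w) = u ^ d * hev d f w := by
  rw [hev, hev, Finset.mul_sum]
  refine Finset.sum_congr rfl fun l hl => ?_
  have : d = l + (d - l) := by have := Finset.mem_range.mp hl; omega
  simp only [Pi.smul_apply, smul_eq_mul, mul_pow]
  nth_rewrite 3 [this]
  rw [pow_add]; ring

theorem hev_none (d : ℕ) (f : K[X]) : hev d f (hx none) = f.coeff d := by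
  rw [hev, Finset.sum_eq_single d]
  · simp [hx]
  · intro l hl hne
    have : d - l ≠ 0 := by have := Finset.mem_range.mp hl; omega
    simp [hx, this]
  · simp

theorem hev_hx {d : ℕ} {f : K[X]} (h : f.natDegree ≤ d) (t : Option K) :
    hev d f (hx t) = hv d f t := by
  cases t with
  | none => exact hev_none d f
  | some t =>
    rw [hv, eval_eq_sum_range' (Nat.lt_succ_of_le h), hev]
    simp [hx]

theorem hev_C_mul (d : ℕ) (c : K) (f : K[X]) (w : Fin 2 → K) :
    hev d (C c * f) w = c * hev d f w := by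
  simp [hev, Finset.mul_sum, mul_assoc]


theorem hx_ne (t : Option K) : hx t ≠ 0 := by
  cases t <;> simp [hx]

theorem exists_hx {w : Fin 2 → K} (hw : w ≠ 0) : ∃ (u : K) (t : Option K), u ≠ 0 ∧ w = u • hx t := by
  by_cases h : w 1 = 0
  · refine ⟨w 0, none, fun h0 => hw ?_, ?_⟩
    · funext i; fin_cases i <;> simp [h, h0]
    · funext i; fin_cases i <;> simp [hx, h]
  · refine ⟨w 1, some (w 0 / w 1), h, ?_⟩
    funext i; fin_cases i
    · simp [hx]; field_simp
    · simp [hx]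

theorem hx_inj {t t' : Option K} {u : K} (h : hx t = u • hx t') : t = t' := by
  have h0 := congrFun h 0
  have h1 := congrFun h 1
  cases t <;> cases t' <;> simp [hx] at h0 h1 ⊢
  · simp [← h1] at h0
  · rw [h0, ← h1, one_mul]

theorem hx_map (α : K →+* L) (t : Option K) : hx (t.map α) = α ∘ hx t := by
  cases t <;> funext i <;> fin_cases i <;> simp [hx]

theorem hv_map (α : K →+* L) (d : ℕ) (f : K[X]) (t : Option K) :
    hv d (f.map α) (t.map α) = α (hv d f t) := by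
  cases t <;> simp [hv]

theorem hv_C_mul (d : ℕ) (c : K) (f : K[X]) (t : Option K) : hv d (C c * f) t = c * hv d f t := by
  cases t <;> simp [hv]

theorem natDegree_lin (a b : K) : (C a * X + C b).natDegree ≤ 1 := natDegree_linear_le

theorem natDegree_mob (d : ℕ) (g : Matrix (Fin 2) (Fin 2) K) (f : K[X]) :
    (mob d g f).natDegree ≤ d := by
  refine natDegree_sum_le_of_forall_le _ _ fun l hl => ?_
  have := Finset.mem_range.mp hl
  refine natDegree_mul_le.trans ?_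
  have h1 := natDegree_C_mul_le (f.coeff l) ((C (g 0 0) * X + C (g 0 1)) ^ l)
  have h2 := natDegree_pow_le_of_le l (natDegree_lin (g 0 0) (g 0 1))
  have h3 := natDegree_pow_le_of_le (d - l) (natDegree_lin (g 1 0) (g 1 1))
  omega

theorem eval_mob (d : ℕ) (g : Matrix (Fin 2) (Fin 2) K) (f : K[X]) (t : K) :
    (mob d g f).eval t = hev d f (g *ᵥ hx (some t)) := by
  simp [mob, hev, eval_finsetSum, hx, mulVec, dotProduct, Fin.sum_univ_two]

theorem coeff_mob (d : ℕ) (g : Matrix (Fin 2) (Fin 2) K) (f : K[X]) :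
    (mob d g f).coeff d = hev d f (g *ᵥ hx none) := by
  rw [mob, finsetSum_coeff, hev]
  refine Finset.sum_congr rfl fun l hl => ?_
  have hl' := Finset.mem_range.mp hl
  have h2 := natDegree_pow_le_of_le l (natDegree_lin (g 0 0) (g 0 1))
  have h3 := natDegree_pow_le_of_le (d - l) (natDegree_lin (g 1 0) (g 1 1))
  have e : d = l * 1 + (d - l) * 1 := by omega
  rw [mul_assoc, coeff_C_mul]
  nth_rewrite 2 [e]
  rw [coeff_mul_add_eq_of_natDegree_le h2 h3, coeff_pow_of_natDegree_le (natDegree_lin _ _),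
    coeff_pow_of_natDegree_le (natDegree_lin _ _)]
  simp [hx, mulVec, dotProduct, Fin.sum_univ_two, mul_assoc, coeff_C]

theorem hv_mob (d : ℕ) (g : Matrix (Fin 2) (Fin 2) K) (f : K[X]) (t : Option K) :
    hv d (mob d g f) t = hev d f (g *ᵥ hx t) := by
  cases t with
  | none => exact coeff_mob d g f
  | some t => exact eval_mob d g f t

theorem hev_mob (d : ℕ) (g : Matrix (Fin 2) (Fin 2) K) (f : K[X]) (w : Fin 2 → K) :
    hev d (mob d g f) w = hev d f (g *ᵥ w) := by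
  by_cases hw : w = 0
  · have h := hev_smul d (mob d g f) 0 (hx none)
    have h' := hev_smul d f 0 (g *ᵥ hx none)
    rw [zero_smul] at h h'
    rw [hw, mulVec_zero, h, h', hev_none, coeff_mob]
  · obtain ⟨u, t, -, rfl⟩ := exists_hx hw
    rw [mulVec_smul, hev_smul, hev_smul, hev_hx (natDegree_mob d g f), hv_mob]

theorem mob_map (α : K →+* L) (d : ℕ) (g : Matrix (Fin 2) (Fin 2) K) (f : K[X]) :
    (mob d g f).map α = mob d (g.map α) (f.map α) := by
  simp [mob, Polynomial.map_sum]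

theorem mob_C_mul (d : ℕ) (g : Matrix (Fin 2) (Fin 2) K) (c : K) (f : K[X]) :
    mob d g (C c * f) = C c * mob d g f := by
  simp [mob, Finset.mul_sum, mul_assoc]

theorem mob_add (d : ℕ) (g : Matrix (Fin 2) (Fin 2) K) (f f' : K[X]) :
    mob d g (f + f') = mob d g f + mob d g f' := by
  simp [mob, Finset.sum_add_distrib, add_mul]

theorem mob_one {d : ℕ} {f : K[X]} (h : f.natDegree ≤ d) : mob d 1 f = f := by
  conv_rhs => rw [as_sum_range' f _ (Nat.lt_succ_of_le h)]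
  simp [mob, C_mul_X_pow_eq_monomial]

variable [Infinite K]

theorem mob_mob (d : ℕ) (g g' : Matrix (Fin 2) (Fin 2) K) (f : K[X]) :
    mob d g' (mob d g f) = mob d (g * g') f :=
  Polynomial.funext fun t => by rw [eval_mob, eval_mob, hev_mob, mulVec_mulVec]

theorem mob_smul (d : ℕ) (u : K) (g : Matrix (Fin 2) (Fin 2) K) (f : K[X]) :
    mob d (u • g) f = C (u ^ d) * mob d g f :=
  Polynomial.funext fun t => by
    rw [eval_mul, eval_C, eval_mob, eval_mob, smul_mulVec, hev_smul]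

end Forms

variable {J : Type} {io : J → Type} {d : J → ℕ}
  [Fintype J] [DecidableEq J] [∀ j, Fintype (io j)] [∀ j, DecidableEq (io j)]

section Cp
variable {K : Type} [Field K] {f : (j : J) → io j → K[X]}

theorem cp_hv (h : Cp d f) (j : J) (t : Option K) : ∃ i, hv (d j) (f j i) t ≠ 0 := by
  cases t with
  | none => exact h.2.1 j
  | some t =>
    by_contra hc
    push Not at hc
    have : Ideal.span (Set.range (f j)) ≤ RingHom.ker (evalRingHom t) := by
      rw [Ideal.span_le]; rintro _ ⟨i, rfl⟩; exact hc i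
    rw [h.2.2 j] at this
    simpa using this (Submodule.mem_top : (1 : K[X]) ∈ ⊤)

theorem cp_hev (h : Cp d f) (j : J) {w : Fin 2 → K} (hw : w ≠ 0) : ∃ i, hev (d j) (f j i) w ≠ 0 := by
  obtain ⟨u, t, hu, rfl⟩ := exists_hx hw
  obtain ⟨i, hi⟩ := cp_hv h j t
  exact ⟨i, by rw [hev_smul, hev_hx (h.1 j i)]; exact mul_ne_zero (pow_ne_zero _ hu) hi⟩

theorem cp_of_closed {L : Type} [Field L] [IsAlgClosed L] (α : K →+* L)
    (h1 : ∀ j i, (f j i).natDegree ≤ d j)
    (h2 : ∀ j t, ∃ i, hv (d j) ((f j i).map α) t ≠ 0) : Cp d f := by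
  refine ⟨h1, fun j => ?_, fun j => ?_⟩
  · obtain ⟨i, hi⟩ := h2 j none
    exact ⟨i, fun h0 => hi (by simp [hv, h0])⟩
  · obtain ⟨g, hg⟩ := (IsPrincipalIdealRing.principal (Ideal.span (Set.range (f j)))).principal
    have hd : ∀ i, g ∣ f j i := fun i => by
      rw [← Ideal.mem_span_singleton, Ideal.span, ← hg]
      exact Ideal.subset_span ⟨i, rfl⟩
    rw [hg]
    refine Ideal.span_singleton_eq_top.mpr ?_
    by_contra hu
    have hdeg : (g.map α).degree ≠ 0 := by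
      rw [degree_map]; exact fun h0 => hu (isUnit_iff_degree_eq_zero.mpr h0)
    obtain ⟨t, ht⟩ := IsAlgClosed.exists_root _ hdeg
    obtain ⟨i, hi⟩ := h2 j (some t)
    exact hi (eval_eq_zero_of_dvd_of_eval_eq_zero (Polynomial.map_dvd α (hd i)) ht)

theorem cp_mob (h : Cp d f) {g : Matrix (Fin 2) (Fin 2) K} (hg : g.det ≠ 0) {c : J → K}
    (hc : ∀ j, c j ≠ 0) : Cp d fun j i => C (c j) * mob (d j) g (f j i) := by
  let α := algebraMap K (AlgebraicClosure K)
  refine cp_of_closed α (fun j i => (natDegree_C_mul_le _ _).trans (natDegree_mob _ _ _))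
    fun j t => ?_
  have hg' : (g.map α).det ≠ 0 := by
    rw [← RingHom.mapMatrix_apply, ← RingHom.map_det]; exact (_root_.map_ne_zero α).2 hg
  have hw : g.map α *ᵥ hx t ≠ 0 := fun h0 => hx_ne t (Matrix.eq_zero_of_mulVec_eq_zero hg' h0)
  obtain ⟨i, hi⟩ := cp_hev (h.map α) j hw
  refine ⟨i, ?_⟩
  rw [Polynomial.map_mul, map_C, hv_C_mul, mob_map, hv_mob]
  exact mul_ne_zero ((_root_.map_ne_zero α).2 (hc j)) hi

end Cp

variable {I I' : Type} {K L : Type} [Field K] [Algebra ℂ K] [Field L] [Algebra ℂ L]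

theorem inf_of_alg (K : Type) [Field K] [Algebra ℂ K] : Infinite K :=
  Infinite.of_injective _ (algebraMap ℂ K).injective

theorem nz_pt (ξ : Dat io d I K) (t : Option K) : NZ (ξ.pt t) := fun j => cp_hv ξ.cp j t

@[ext] theorem dat_ext {ξ η : Dat io d I K} (h1 : ξ.f = η.f) (h2 : ξ.x = η.x) : ξ = η := by
  cases ξ; cases η; simp only at h1 h2; subst h1 h2; rfl

theorem dmap_map {N : Type} [Field N] [Algebra ℂ N] (α : K →ₐ[ℂ] L) (β : L →ₐ[ℂ] N)
    (ξ : Dat io d I K) : (ξ.map α).map β = ξ.map (β.comp α) := by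
  refine dat_ext (_root_.funext fun j => _root_.funext fun i => ?_) (_root_.funext fun q => ?_)
  · simp only [Dat.map, Polynomial.map_map]; rfl
  · simp only [Dat.map, Option.map_map]; rfl

theorem dmap_id (ξ : Dat io d I K) : ξ.map (AlgHom.id ℂ K) = ξ := by
  refine dat_ext (_root_.funext fun j => _root_.funext fun i => ?_) (_root_.funext fun q => ?_)
  · simp [Dat.map]
  · simp [Dat.map]

theorem dmap_res (α : K →ₐ[ℂ] L) (m : I' → I) (ξ : Dat io d I K) :
    (ξ.res m).map α = (ξ.map α).res m := rfl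

theorem dmap_pt (α : K →ₐ[ℂ] L) (ξ : Dat io d I K) (t : Option K) (j : J) (i : io j) :
    (ξ.map α).pt (t.map α) j i = α (ξ.pt t j i) := hv_map (α : K →+* L) _ _ t

/-- the action of a Moebius transformation and scalars on a datum -/
def act (ξ : Dat io d I K) (g : Matrix (Fin 2) (Fin 2) K) (hg : g.det ≠ 0) (c : J → K)
    (hc : ∀ j, c j ≠ 0) : Dat io d I K where
  f j i := C (c j) * mob (d j) g (ξ.f j i)
  x q := (exists_hx (w := g⁻¹ *ᵥ hx (ξ.x q)) fun h0 => hx_ne _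
    (Matrix.eq_zero_of_mulVec_eq_zero (by rw [det_nonsing_inv, Ring.inverse_eq_inv']; exact inv_ne_zero hg)
      h0)).choose_spec.choose
  cp := cp_mob ξ.cp hg hc

theorem act_x (ξ : Dat io d I K) (g : Matrix (Fin 2) (Fin 2) K) (hg : g.det ≠ 0) (c : J → K)
    (hc : ∀ j, c j ≠ 0) (q : I) : ∃ u : K, g *ᵥ hx ((act ξ g hg c hc).x q) = u • hx (ξ.x q) := by
  have H := exists_hx (w := g⁻¹ *ᵥ hx (ξ.x q)) fun h0 => hx_ne _
    (Matrix.eq_zero_of_mulVec_eq_zero (by rw [det_nonsing_inv, Ring.inverse_eq_inv']; exact inv_ne_zero hg)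
      h0)
  obtain ⟨h1, h2⟩ := H.choose_spec.choose_spec
  refine ⟨H.choose⁻¹, ?_⟩
  have := congrArg (g *ᵥ ·) h2
  simp only [mulVec_mulVec, mul_nonsing_inv g (Ne.isUnit hg), one_mulVec, mulVec_smul] at this
  have h3 := congrArg (H.choose⁻¹ • ·) this
  simp only [smul_smul, inv_mul_cancel₀ h1, one_smul] at h3
  exact h3.symm

theorem eqv_act (ξ : Dat io d I K) (g : Matrix (Fin 2) (Fin 2) K) (hg : g.det ≠ 0) (c : J → K)
    (hc : ∀ j, c j ≠ 0) : ξ.Eqv (act ξ g hg c hc) :=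
  ⟨g, c, hg, hc, fun _ _ => rfl, act_x ξ g hg c hc⟩

theorem u_ne {g : Matrix (Fin 2) (Fin 2) K} (hg : g.det ≠ 0) {t t' : Option K} {u : K}
    (h : g *ᵥ hx t = u • hx t') : u ≠ 0 := fun h0 =>
  hx_ne t (Matrix.eq_zero_of_mulVec_eq_zero hg (by rw [h, h0, zero_smul]))

theorem eqv_refl (ξ : Dat io d I K) : ξ.Eqv ξ :=
  ⟨1, fun _ => 1, by simp, fun _ => one_ne_zero, fun j i => by simp [mob_one (ξ.cp.1 j i)],
    fun q => ⟨1, by simp⟩⟩

theorem eqv_trans {ξ η ζ : Dat io d I K} (h : ξ.Eqv η) (h' : η.Eqv ζ) : ξ.Eqv ζ := by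
  have := inf_of_alg K
  obtain ⟨g, c, hg, hc, hf, hp⟩ := h
  obtain ⟨g', c', hg', hc', hf', hp'⟩ := h'
  refine ⟨g * g', fun j => c' j * c j, by rw [det_mul]; exact mul_ne_zero hg hg',
    fun j => mul_ne_zero (hc' j) (hc j), fun j i => ?_, fun q => ?_⟩
  · rw [hf', hf, mob_C_mul, mob_mob, C_mul, mul_assoc]
  · obtain ⟨u, hu⟩ := hp q
    obtain ⟨u', hu'⟩ := hp' q
    exact ⟨u' * u, by rw [← mulVec_mulVec, hu', mulVec_smul, hu, smul_smul]⟩

theorem eqv_symm {ξ η : Dat io d I K} (h : ξ.Eqv η) : η.Eqv ξ := by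
  have := inf_of_alg K
  obtain ⟨g, c, hg, hc, hf, hp⟩ := h
  refine ⟨g⁻¹, fun j => (c j)⁻¹, by rw [det_nonsing_inv, Ring.inverse_eq_inv']; exact inv_ne_zero hg,
    fun j => inv_ne_zero (hc j), fun j i => ?_, fun q => ?_⟩
  · rw [hf, mob_C_mul, mob_mob, mul_nonsing_inv g (Ne.isUnit hg), mob_one (ξ.cp.1 j i),
      ← mul_assoc, ← C_mul, inv_mul_cancel₀ (hc j), C_1, one_mul]
  · obtain ⟨u, hu⟩ := hp q
    refine ⟨u⁻¹, ?_⟩
    have := congrArg (g⁻¹ *ᵥ ·) hu
    simp only [mulVec_mulVec, nonsing_inv_mul g (Ne.isUnit hg), one_mulVec, mulVec_smul] at this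
    rw [this, smul_smul, inv_mul_cancel₀ (u_ne hg hu), one_smul]

theorem eqv_map {ξ η : Dat io d I K} (h : ξ.Eqv η) (α : K →ₐ[ℂ] L) : (ξ.map α).Eqv (η.map α) := by
  obtain ⟨g, c, hg, hc, hf, hp⟩ := h
  refine ⟨g.map (α : K →+* L), fun j => α (c j), ?_, fun j => (_root_.map_ne_zero α).2 (hc j),
    fun j i => ?_, fun q => ?_⟩
  · rw [← RingHom.mapMatrix_apply, ← RingHom.map_det]; exact (_root_.map_ne_zero _).2 hg
  · simp only [Dat.map]; rw [hf, Polynomial.map_mul, map_C, mob_map]; rfl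
  · obtain ⟨u, hu⟩ := hp q
    refine ⟨α u, _root_.funext fun i => ?_⟩
    have h1 := hx_map (α : K →+* L) (η.x q)
    have h2 := hx_map (α : K →+* L) (ξ.x q)
    simp only [Dat.map]
    erw [h1, h2]
    rw [← RingHom.map_mulVec, hu]
    simp

theorem eqv_res {ξ η : Dat io d I K} (h : ξ.Eqv η) (m : I' → I) : (ξ.res m).Eqv (η.res m) := by
  obtain ⟨g, c, hg, hc, hf, hp⟩ := h
  exact ⟨g, c, hg, hc, hf, fun q => hp (m q)⟩

/-- an equivalence of the marked part extends to the whole datum -/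
theorem eqv_extend {ξ : Dat io d I K} {η : Dat io d I' K} {m : I' → I} (h : (ξ.res m).Eqv η) :
    ∃ ξ' : Dat io d I K, ξ.Eqv ξ' ∧ ξ'.res m = η := by
  obtain ⟨g, c, hg, hc, hf, hp⟩ := h
  refine ⟨act ξ g hg c hc, eqv_act _ _ _ _ _, dat_ext (_root_.funext fun j => _root_.funext fun i => (hf j i).symm)
    (_root_.funext fun q => ?_)⟩
  obtain ⟨u, hu⟩ := act_x ξ g hg c hc (m q)
  obtain ⟨u', hu'⟩ := hp q
  refine hx_inj (u := u / u') (sub_eq_zero.mp (Matrix.eq_zero_of_mulVec_eq_zero hg ?_))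
  rw [mulVec_sub, mulVec_smul, hu', smul_smul, div_mul_cancel₀ _ (u_ne hg hu')]
  exact sub_eq_zero.mpr hu

theorem eqv_inj {ξ η : Dat io d I K} (h : ξ.Eqv η) {q q' : I} (hq : ξ.x q = ξ.x q') :
    η.x q = η.x q' := by
  obtain ⟨g, c, hg, -, -, hp⟩ := h
  obtain ⟨u, hu⟩ := hp q
  obtain ⟨u', hu'⟩ := hp q'
  refine hx_inj (u := u / u') (sub_eq_zero.mp (Matrix.eq_zero_of_mulVec_eq_zero hg ?_))
  rw [mulVec_sub, mulVec_smul, hu', smul_smul, div_mul_cancel₀ _ (u_ne hg hu'), hu, hq, sub_self]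

theorem prod_gau (c : J → K) (u : K) (κ : J → ℕ) :
    ∏ j, (c j * u ^ d j) ^ κ j = (∏ j, c j ^ κ j) * u ^ dot κ d := by
  simp only [mul_pow, Finset.prod_mul_distrib, dot, ← pow_mul, Finset.prod_pow_eq_pow_sum,
    mul_comm (d _)]

/-- equivalent data have gauge equivalent configurations -/
theorem eqv_cfg [Fintype I] {ξ η : Dat io d I K} (h : ξ.Eqv η) :
    ∃ c : I → J → K, (∀ q j, c q j ≠ 0) ∧ η.cfg = ξ.cfg.gau c := by
  have := inf_of_alg K
  obtain ⟨g, c, hg, hc, hf, hp⟩ := h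
  choose u hu using hp
  refine ⟨fun q j => c j * u q ^ d j,
    fun q j => mul_ne_zero (hc j) (pow_ne_zero _ (u_ne hg (hu q))), ?_⟩
  have key : ∀ (n : ℕ) (σ : K[X]) (q : I), σ.natDegree ≤ n →
      hv n (mob n g σ) (η.x q) = u q ^ n * hv n σ (ξ.x q) := fun n σ q hσ => by
    rw [hv_mob, hu, hev_smul, hev_hx hσ]
  simp only [Dat.cfg, Cfg.gau, Cfg.mk.injEq]
  refine ⟨funext fun q => _root_.funext fun j => _root_.funext fun i => ?_, _root_.funext fun κ => ?_⟩
  · simp only [Dat.pt]; rw [hf, hv_C_mul, key _ _ _ (ξ.cp.1 j i), mul_assoc]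
  · have hP : (∏ j, c j ^ κ j) ≠ 0 := Finset.prod_ne_zero_iff.mpr fun j _ => pow_ne_zero _ (hc j)
    ext w
    simp only [sclS, Submodule.mem_map, mem_degreeLE, exists_exists_and_eq_and,
      ← natDegree_le_iff_degree_le]
    constructor
    · rintro ⟨σ, hσ, rfl⟩
      have h1 := (natDegree_C_mul_le (∏ j, c j ^ κ j)⁻¹ _).trans (natDegree_mob (dot κ d) g⁻¹ σ)
      refine ⟨_, h1, _root_.funext fun q => ?_⟩
      have := key _ _ q h1
      rw [mob_C_mul, mob_mob, nonsing_inv_mul g (Ne.isUnit hg), mob_one hσ, hv_C_mul] at this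
      simp only [LinearMap.pi_apply, LinearMap.smul_apply, LinearMap.proj_apply, smul_eq_mul,
        prod_gau, Dat.evl, LinearMap.coe_mk, AddHom.coe_mk]
      rw [mul_assoc, ← this]; field_simp
    · rintro ⟨σ, hσ, rfl⟩
      refine ⟨C (∏ j, c j ^ κ j) * mob _ g σ,
        (natDegree_C_mul_le _ _).trans (natDegree_mob _ _ _), _root_.funext fun q => ?_⟩
      simp only [LinearMap.pi_apply, LinearMap.smul_apply, LinearMap.proj_apply, smul_eq_mul,
        prod_gau, Dat.evl, LinearMap.coe_mk, AddHom.coe_mk]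
      rw [hv_C_mul, key _ _ _ hσ, mul_assoc]

theorem ln_scl {y : Pnt io K} (hy : NZ y) {c : J → K} (hc : ∀ j, c j ≠ 0) (j : J) :
    ln (fun j i => c j * y j i) j = pr ℂ (c j) + ln y j := by
  refine (eq_mxf (fun i => mul_mem_Sec (mem_Sec_pr _) (mem_Sec_mxf _ i)) fun V => ?_).symm
  obtain ⟨i, hi⟩ := exists_val_mxf (k := ℂ) (hy j) V
  exact ⟨i, by rw [map_mul, val_add, val_pr (hc j), hi]⟩

theorem lw_scl {y : Pnt io K} (hy : NZ y) {c : J → K} (hc : ∀ j, c j ≠ 0) (κ : J → ℕ) :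
    lw κ (fun j i => c j * y j i) = pr ℂ (∏ j, c j ^ κ j) + lw κ y := by
  rw [lw, lw, pr_prod _ fun j _ => pow_ne_zero _ (hc j), ← Finset.sum_add_distrib]
  exact Finset.sum_congr rfl fun j _ => by rw [ln_scl hy hc, smul_add, pr_pow (hc j)]

theorem nrm_map {ξ : Dat io d I K} {κ : J → ℕ} (h : ξ.Nrm κ) (α : K →ₐ[ℂ] L) :
    (ξ.map α).Nrm κ := fun N _ _ β W σ hσ => by
  rw [dmap_map]; exact h N (β.comp α) W σ hσ

theorem nrm_of_res {ξ : Dat io d I K} {κ : J → ℕ} (m : I' → I) (h : (ξ.res m).Nrm κ) : ξ.Nrm κ :=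
  fun N _ _ β W σ hσ hq => h N β W σ hσ fun q => hq (m q)

theorem eqv_nrm {ξ η : Dat io d I K} (h : ξ.Eqv η) {κ : J → ℕ} (hn : ξ.Nrm κ) : η.Nrm κ := by
  intro N _ _ β W σ hσ
  have := inf_of_alg N
  obtain ⟨g, c, hg, hc, hf, hp⟩ := eqv_symm (eqv_map (L := N) h β)
  have hP : (∏ j, c j ^ κ j) ≠ 0 := Finset.prod_ne_zero_iff.mpr fun j _ => pow_ne_zero _ (hc j)
  have key : ∀ {t t' : Option N} {u : N}, g *ᵥ hx t = u • hx t' →
      (W.v (hv (dot κ d) (C (∏ j, c j ^ κ j) * mob (dot κ d) g σ) t) ≤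
        (lw κ ((ξ.map β).pt t)).val W ↔
      W.v (hv (dot κ d) σ t') ≤ (lw κ ((η.map β).pt t')).val W) := by
    intro t t' u hu
    have h0 := u_ne hg hu
    have e : (ξ.map β).pt t = fun j i => (c j * u ^ d j) * (η.map β).pt t' j i := by
      funext j i
      simp only [Dat.pt]
      rw [hf, hv_C_mul, hv_mob, hu, hev_smul, hev_hx ((η.map β).cp.1 j i), mul_assoc]
    rw [e, lw_scl (nz_pt _ _) (fun j => mul_ne_zero (hc j) (pow_ne_zero _ h0)), prod_gau, val_add,
      val_pr (mul_ne_zero hP (pow_ne_zero _ h0)), hv_C_mul, hv_mob, hu, hev_smul, hev_hx hσ,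
      ← mul_assoc, map_mul]
    exact mul_le_mul_iff_right₀ (RZ.pos (mul_ne_zero hP (pow_ne_zero _ h0)))
  intro hq t'
  obtain ⟨u, t, hu, ht⟩ := exists_hx (w := g⁻¹ *ᵥ hx t') fun h0 => hx_ne _
    (Matrix.eq_zero_of_mulVec_eq_zero
      (by rw [det_nonsing_inv, Ring.inverse_eq_inv']; exact inv_ne_zero hg) h0)
  have h1 : g *ᵥ hx t = u⁻¹ • hx t' := by
    have := congrArg (g *ᵥ ·) ht
    simp only [mulVec_mulVec, mul_nonsing_inv g (Ne.isUnit hg), one_mulVec, mulVec_smul] at this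
    rw [this, smul_smul, inv_mul_cancel₀ hu, one_smul]
  refine (key h1).mp (hn N β W _ ((natDegree_C_mul_le _ _).trans (natDegree_mob _ _ _))
    (fun q => ?_) t)
  obtain ⟨u, hu⟩ := hp q
  exact (key hu).mpr (hq q)

theorem eqv_nrmUp {ξ η : Dat io d I K} (h : ξ.Eqv η) {N : ℕ} (hn : ξ.NrmUp N) : η.NrmUp N :=
  fun κ hκ => eqv_nrm h (hn κ hκ)

theorem nrmUp_map {ξ : Dat io d I K} {N : ℕ} (h : ξ.NrmUp N) (α : K →ₐ[ℂ] L) :
    (ξ.map α).NrmUp N := fun κ hκ => nrm_map (h κ hκ) α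

theorem nrmUp_of_res {ξ : Dat io d I K} {N : ℕ} (m : I' → I) (h : (ξ.res m).NrmUp N) :
    ξ.NrmUp N := fun κ hκ => nrm_of_res m (h κ hκ)

theorem nrmUp_mono {ξ : Dat io d I K} {N N' : ℕ} (h : ξ.NrmUp N) (hN : N' ≤ N) : ξ.NrmUp N' :=
  fun κ hκ => h κ fun j => (hκ j).trans hN

/-- the configuration commutes with field extensions -/
theorem cfg_map [Fintype I] (α : K →ₐ[ℂ] L) (ξ : Dat io d I K) : (ξ.map α).cfg = ξ.cfg.map α := by
  simp only [Dat.cfg, Cfg.map, Cfg.mk.injEq]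
  refine ⟨funext fun q => _root_.funext fun j => _root_.funext fun i => dmap_pt α ξ _ j i, _root_.funext fun κ => ?_⟩
  refine le_antisymm ?_ (Submodule.span_le.mpr ?_)
  · rintro _ ⟨σ, hσ, rfl⟩
    have hσ' : σ.natDegree ≤ dot κ d := natDegree_le_iff_degree_le.mpr (mem_degreeLE.mp hσ)
    rw [as_sum_range' σ _ (Nat.lt_succ_of_le hσ'), map_sum]
    refine Submodule.sum_mem _ fun l hl => ?_
    rw [← mul_one (σ.coeff l), ← smul_eq_mul, ← smul_monomial, map_smul]
    refine Submodule.smul_mem _ _ (Submodule.subset_span ⟨ξ.evl _ (monomial l 1),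
      ⟨monomial l 1, mem_degreeLE.mpr ((degree_monomial_le _ _).trans ?_), rfl⟩, _root_.funext fun q => ?_⟩)
    · exact_mod_cast Nat.lt_succ_iff.mp (Finset.mem_range.mp hl)
    · have := hv_map (α : K →+* L) (dot κ d) (monomial l 1) (ξ.x q)
      rw [map_monomial, map_one] at this
      exact this
  · rintro _ ⟨_, ⟨σ, hσ, rfl⟩, rfl⟩
    exact ⟨σ.map (α : K →+* L), mem_degreeLE.mpr (degree_map_le.trans (mem_degreeLE.mp hσ)),
      _root_.funext fun q => hv_map (α : K →+* L) _ σ (ξ.x q)⟩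

/-- the configuration commutes with restriction of the points -/
theorem cfg_res [Fintype I] [Fintype I'] (m : I' → I) (ξ : Dat io d I K) :
    (ξ.res m).cfg = ξ.cfg.res m := by
  simp only [Dat.cfg, Cfg.res, Cfg.mk.injEq]
  refine ⟨rfl, _root_.funext fun κ => ?_⟩
  rw [← Submodule.map_comp]; rfl

end Crest.Agent.X262.Vb37
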