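import Crest.Agent.X262.Vb37.Mob

/-! # Row 262, road B: the universal datum exists and is unique (helper37) -/

set_option autoImplicit false
set_option linter.unusedSectionVars false

noncomputable section

namespace Crest.Agent.X262.Vb37

open Crest.Agent.X277 Crest.Agent.X277.BD Polynomial Matrix
open Crest.Agent.X262.Bub96 (hv Tr)
open Crest.Agent.X262.Vb

variable {J : Type} {io : J → Type} {d : J → ℕ}
  [Fintype J] [DecidableEq J] [∀ j, Fintype (io j)] [∀ j, DecidableEq (io j)]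
variable {I I' M : Type} {K L : Type} [Field K] [Algebra ℂ K] [Field L] [Algebra ℂ L]


/-- the marks `a, b, c` are `∞, 0, 1` -/
def Nm3 (ξ : Dat io d I K) (a b c : I) : Prop := ξ.x a = none ∧ ξ.x b = some 0 ∧ ξ.x c = some 1

theorem Nm3.ne {ξ : Dat io d I K} {a b c : I} (h : Nm3 ξ a b c) : a ≠ b ∧ a ≠ c ∧ b ≠ c := by
  obtain ⟨h1, h2, h3⟩ := h
  refine ⟨?_, ?_, ?_⟩ <;> rintro rfl <;> simp_all

/-- the determinant of two vectors -/
def dt (v w : Fin 2 → K) : K := v 0 * w 1 - v 1 * w 0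

theorem dt_hx {t t' : Option K} (h : t ≠ t') : dt (hx t) (hx t') ≠ 0 := by
  cases t <;> cases t' <;> simp [dt, hx] at h ⊢
  exact sub_ne_zero.mpr h

/-- three distinct points can be moved to `∞, 0, 1` -/
theorem exists_nm3 (ξ : Dat io d I K) {a b c : I} (hab : ξ.x a ≠ ξ.x b) (hac : ξ.x a ≠ ξ.x c)
    (hbc : ξ.x b ≠ ξ.x c) : ∃ η, ξ.Eqv η ∧ Nm3 η a b c := by
  set p := hx (ξ.x a)
  set q := hx (ξ.x b)
  set r := hx (ξ.x c)
  have h1 : dt p q ≠ 0 := dt_hx hab
  have h2 : dt p r ≠ 0 := dt_hx hac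
  have h3 : dt r q ≠ 0 := dt_hx hbc.symm
  let g : Matrix (Fin 2) (Fin 2) K := !![dt r q * p 0, dt p r * q 0; dt r q * p 1, dt p r * q 1]
  have hg : g.det ≠ 0 := by
    have : g.det = dt r q * dt p r * dt p q := by simp [g, det_fin_two, dt]; ring
    rw [this]; exact mul_ne_zero (mul_ne_zero h3 h2) h1
  have key : ∀ (s : I) (t : Option K) (u : K), g *ᵥ hx t = u • hx (ξ.x s) →
      (act ξ g hg (fun _ => 1) fun _ => one_ne_zero).x s = t := by
    intro s t u hu
    obtain ⟨u', hu'⟩ := act_x ξ g hg (fun _ => 1) (fun _ => one_ne_zero) s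
    refine hx_inj (u := u' / u) (sub_eq_zero.mp (Matrix.eq_zero_of_mulVec_eq_zero hg ?_))
    rw [mulVec_sub, mulVec_smul, hu, smul_smul, div_mul_cancel₀ _ (u_ne hg hu), hu', sub_self]
  refine ⟨_, eqv_act ξ g hg (fun _ => 1) fun _ => one_ne_zero, key a none (dt r q) ?_,
    key b (some 0) (dt p r) ?_, key c (some 1) (dt p q) ?_⟩
  · funext i; fin_cases i <;> simp [g, hx, mulVec, dotProduct, Fin.sum_univ_two, p]
  · funext i; fin_cases i <;> simp [g, hx, mulVec, dotProduct, Fin.sum_univ_two, q]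
  · change _ = dt p q • r
    funext i; fin_cases i <;> simp [g, hx, mulVec, dotProduct, Fin.sum_univ_two, dt] <;> ring

/-- rigidity: equivalent data with the same three normalised points differ by scalars -/
theorem eqv_rigid {ξ η : Dat io d I K} (h : ξ.Eqv η) {a b c : I} (h1 : Nm3 ξ a b c)
    (h2 : Nm3 η a b c) :
    η.x = ξ.x ∧ ∃ s : J → K, (∀ j, s j ≠ 0) ∧ ∀ j i, η.f j i = C (s j) * ξ.f j i := by
  have := inf_of_alg K
  obtain ⟨g, s, hg, hs, hf, hp⟩ := h
  obtain ⟨ua, ha⟩ := hp a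
  obtain ⟨ub, hb⟩ := hp b
  obtain ⟨uc, hc⟩ := hp c
  have hu := u_ne hg hc
  rw [h1.1, h2.1] at ha
  rw [h1.2.1, h2.2.1] at hb
  rw [h1.2.2, h2.2.2] at hc
  have a1 := congrFun ha 1
  have b0 := congrFun hb 0
  have c0 := congrFun hc 0
  have c1 := congrFun hc 1
  simp [hx, mulVec, dotProduct, Fin.sum_univ_two] at a1 b0 c0 c1
  have hg1 : g = uc • (1 : Matrix (Fin 2) (Fin 2) K) := by
    ext i j; fin_cases i <;> fin_cases j <;> simp_all
  refine ⟨funext fun q => ?_, fun j => s j * uc ^ d j,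
    fun j => mul_ne_zero (hs j) (pow_ne_zero _ hu), fun j i => ?_⟩
  · obtain ⟨u, hq⟩ := hp q
    rw [hg1, smul_mulVec, one_mulVec] at hq
    refine hx_inj (u := uc⁻¹ * u) ?_
    rw [← smul_smul, ← hq, smul_smul, inv_mul_cancel₀ hu, one_smul]
  · rw [hf, hg1, mob_smul, mob_one (ξ.cp.1 j i), C_mul, mul_assoc]

theorem crd_eq {ξ η : Dat io d I K} (hx : η.x = ξ.x) {s : J → K} (hs : ∀ j, s j ≠ 0)
    (hf : ∀ j i, η.f j i = C (s j) * ξ.f j i) : η.crd = ξ.crd := by
  ext t
  simp only [Dat.crd, Set.mem_ofPred_eq, hx, hf, coeff_C_mul, mul_div_mul_left _ _ (hs _)]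

theorem crd_map (α : K →ₐ[ℂ] L) (ξ : Dat io d I K) : (ξ.map α).crd = α '' ξ.crd := by
  ext t
  simp only [Dat.crd, Dat.map, Set.mem_ofPred_eq, coeff_map, Set.mem_image, Option.map_eq_some_iff]
  constructor
  · rintro (⟨j, i, i', l, l', rfl⟩ | ⟨q, s, hs, rfl⟩)
    · exact ⟨_, Or.inl ⟨j, i, i', l, l', rfl⟩, by simp⟩
    · exact ⟨s, Or.inr ⟨q, hs⟩, rfl⟩
  · rintro ⟨s, ⟨j, i, i', l, l', rfl⟩ | ⟨q, hs⟩, rfl⟩
    · exact Or.inl ⟨j, i, i', l, l', by simp⟩
    · exact Or.inr ⟨q, s, hs, rfl⟩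

/-- a datum is defined over the field generated by its moduli -/
theorem exists_desc (η : Dat io d I K) (E : IntermediateField ℂ K) (hE : η.crd ⊆ E) :
    ∃ ζ : Dat io d I E, (ζ.map E.val).x = η.x ∧
      ∃ s : J → K, (∀ j, s j ≠ 0) ∧ ∀ j i, η.f j i = C (s j) * (ζ.map E.val).f j i := by
  choose i0 hi0 using η.cp.2.1
  have hf : ∀ j i, ∃ p : E[X], p.map (E.val : E →+* K) = C ((η.f j (i0 j)).coeff (d j))⁻¹ * η.f j i := by
    intro j i
    rw [← mem_lifts, lifts_iff_coeff_lifts]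
    intro n
    exact ⟨⟨_, hE (Or.inl ⟨j, i, i0 j, n, d j, rfl⟩)⟩, by simp [div_eq_inv_mul]⟩
  choose f hf using hf
  have hp : ∀ q, ∃ t : Option E, t.map E.val = η.x q := by
    intro q
    rcases h : η.x q with _ | t
    · exact ⟨none, rfl⟩
    · exact ⟨some ⟨t, hE (Or.inr ⟨q, h⟩)⟩, rfl⟩
  choose x hx using hp
  have hcp : Cp d f := by
    let α := algebraMap K (AlgebraicClosure K)
    refine cp_of_closed (α.comp (E.val : E →+* K)) (fun j i => ?_) fun j t => ?_
    · rw [← natDegree_map (E.val : E →+* K), hf]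
      exact (natDegree_C_mul_le _ _).trans (η.cp.1 j i)
    · obtain ⟨i, hi⟩ := cp_hv (η.cp.map α) j t
      refine ⟨i, ?_⟩
      rw [← Polynomial.map_map, hf, Polynomial.map_mul, map_C, hv_C_mul]
      exact mul_ne_zero ((_root_.map_ne_zero α).2 (inv_ne_zero (hi0 j))) hi
  refine ⟨⟨f, x, hcp⟩, funext hx, fun j => (η.f j (i0 j)).coeff (d j), hi0, fun j i => ?_⟩
  simp only [Dat.map]
  rw [hf, ← mul_assoc, ← C_mul, mul_inv_cancel₀ (hi0 j), C_1, one_mul]

theorem eqv_of_scl {ξ η : Dat io d I K} (hx : η.x = ξ.x) {s : J → K} (hs : ∀ j, s j ≠ 0)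
    (hf : ∀ j i, η.f j i = C (s j) * ξ.f j i) : ξ.Eqv η :=
  ⟨1, s, by simp, hs, fun j i => by rw [hf, mob_one (ξ.cp.1 j i)], fun q => ⟨1, by simp [hx]⟩⟩

/-- the moduli of a normalised datum lie in the field generated by the moduli of any equivalent
datum -/
theorem crd_le_of_eqv {ξ η : Dat io d I K} (h : ξ.Eqv η) {a b c : I} (h1 : Nm3 ξ a b c) :
    IntermediateField.adjoin ℂ ξ.crd ≤ IntermediateField.adjoin ℂ η.crd := by
  set E := IntermediateField.adjoin ℂ η.crd
  obtain ⟨ζ, hx, s, hs, hf⟩ := exists_desc η E (IntermediateField.subset_adjoin _ _)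
  have h2 : (ζ.map E.val).Eqv ξ := eqv_trans (eqv_of_scl hx.symm hs hf) (eqv_symm h)
  have hne : ∀ {p q : I}, ξ.x p ≠ ξ.x q → ζ.x p ≠ ζ.x q := fun hpq e =>
    hpq (eqv_inj h2 (by simp only [Dat.map]; rw [e]))
  obtain ⟨ζ', h3, h4⟩ := exists_nm3 ζ (a := a) (b := b) (c := c)
    (hne (by rw [h1.1, h1.2.1]; simp)) (hne (by rw [h1.1, h1.2.2]; simp))
    (hne (by rw [h1.2.1, h1.2.2]; simp))
  have h5 : Nm3 (ζ'.map E.val) a b c := by
    simp only [Nm3, Dat.map]; rw [h4.1, h4.2.1, h4.2.2]; simp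
  obtain ⟨e1, s', hs', e2⟩ := eqv_rigid (eqv_trans (eqv_symm (eqv_map h3 E.val)) h2) h5 h1
  rw [IntermediateField.adjoin_le_iff, crd_eq e1 hs' e2, crd_map]
  rintro _ ⟨t, -, rfl⟩
  exact t.2

/-! ### free coordinates -/

/-- the index set of the moduli -/
abbrev Ix (p0 : (j : J) → io j × Fin (d j + 1)) (a b c : M) : Type :=
  (Σ j, {p : io j × Fin (d j + 1) // p ≠ p0 j}) ⊕ {q : M // q ≠ a ∧ q ≠ b ∧ q ≠ c}

theorem card_Ix [Fintype M] (p0 : (j : J) → io j × Fin (d j + 1)) {a b c : M} (hab : a ≠ b)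
    (hac : a ≠ c) (hbc : b ≠ c) : Nat.card (Ix p0 a b c) = mdim io d (Fintype.card M) := by
  classical
  have h1 : Fintype.card {q : M // q ≠ a ∧ q ≠ b ∧ q ≠ c} + 3 = Fintype.card M := by
    have h3 : ({a, b, c} : Finset M).card = 3 := Finset.card_eq_three.mpr ⟨a, b, c, hab, hac, hbc, rfl⟩
    rw [← h3, add_comm, ← Finset.card_add_card_compl ({a, b, c} : Finset M), Fintype.card_subtype]
    congr 2; ext q; simp
  rw [Nat.card_eq_fintype_card, Fintype.card_sum, Fintype.card_sigma, mdim, ← h1]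
  simp only [ne_eq, Fintype.card_subtype_compl, Fintype.card_prod, Fintype.card_fin,
    Fintype.card_unique]
  omega

/-- the moduli of a datum -/
def gen (ξ : Dat io d M K) (p0 : (j : J) → io j × Fin (d j + 1)) (a b c : M) : Ix p0 a b c → K
  | .inl ⟨j, p⟩ => (ξ.f j p.1.1).coeff p.1.2 / (ξ.f j (p0 j).1).coeff (p0 j).2
  | .inr q => (ξ.x q.1).getD 0

theorem adjoin_gen {ξ : Dat io d M K} {p0 : (j : J) → io j × Fin (d j + 1)} {a b c : M}
    (h : Nm3 ξ a b c) (h0 : ∀ j, (ξ.f j (p0 j).1).coeff (p0 j).2 ≠ 0) :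
    IntermediateField.adjoin ℂ ξ.crd ≤ IntermediateField.adjoin ℂ (Set.range (gen ξ p0 a b c)) := by
  set E := IntermediateField.adjoin ℂ (Set.range (gen ξ p0 a b c))
  have key : ∀ j i l, (ξ.f j i).coeff l / (ξ.f j (p0 j).1).coeff (p0 j).2 ∈ E := by
    intro j i l
    by_cases hl : l < d j + 1
    · by_cases hp : (i, (⟨l, hl⟩ : Fin (d j + 1))) = p0 j
      · rw [← hp, div_self (by have := h0 j; rwa [← hp] at this)]; exact E.one_mem
      · exact IntermediateField.subset_adjoin _ _ ⟨.inl ⟨j, ⟨_, hp⟩⟩, rfl⟩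
    · rw [coeff_eq_zero_of_natDegree_lt (lt_of_le_of_lt (ξ.cp.1 j i) (by omega)), zero_div]
      exact E.zero_mem
  rw [IntermediateField.adjoin_le_iff]
  rintro t (⟨j, i, i', l, l', rfl⟩ | ⟨q, hq⟩)
  · rw [← div_div_div_cancel_right₀ (h0 j)]
    exact E.div_mem (key j i l) (key j i' l')
  · by_cases ha : q = a
    · rw [ha, h.1] at hq; cases hq
    by_cases hb : q = b
    · rw [hb, h.2.1] at hq; cases hq; exact E.zero_mem
    by_cases hc : q = c
    · rw [hc, h.2.2] at hq; cases hq; exact E.one_mem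
    exact IntermediateField.subset_adjoin _ _ ⟨.inr ⟨q, ha, hb, hc⟩, by simp [gen, hq]⟩

variable [Fintype M]

theorem indep_gen {ξ : Dat io d M K} (hu : ξ.Univ) {p0 : (j : J) → io j × Fin (d j + 1)}
    {a b c : M} (h : Nm3 ξ a b c) (h0 : ∀ j, (ξ.f j (p0 j).1).coeff (p0 j).2 ≠ 0) :
    IntermediateField.adjoin ℂ (Set.range (gen ξ p0 a b c)) = ⊤ ∧
      AlgebraicIndependent ℂ (gen ξ p0 a b c) := by
  have h1 : IntermediateField.adjoin ℂ (Set.range (gen ξ p0 a b c)) = ⊤ :=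
    top_le_iff.mp (hu.2.1 ▸ adjoin_gen h h0)
  refine ⟨h1, ?_⟩
  have : Algebra.IsAlgebraic (Algebra.adjoin ℂ (Set.range (gen ξ p0 a b c))) K := by
    rw [← IntermediateField.isAlgebraic_adjoin_iff_top, h1, Algebra.isAlgebraic_iff_isIntegral]
    exact Algebra.isIntegral_of_surjective IntermediateField.topEquiv.surjective
  refine (Algebra.IsAlgebraic.isTranscendenceBasis_of_le_trdeg_of_finite ℂ _ ?_).1
  rw [hu.2.2, ← card_Ix p0 h.ne.1 h.ne.2.1 h.ne.2.2, Nat.card, Cardinal.cast_toNat_of_lt_aleph0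
    (Cardinal.lt_aleph0_of_finite _)]

/-- all coefficients of the universal datum are non-zero -/
theorem univ_coeff_ne {ξ : Dat io d M K} (hu : ξ.Univ) (j : J) (i : io j) {l : ℕ} (hl : l ≤ d j) :
    (ξ.f j i).coeff l ≠ 0 := by
  obtain ⟨a, b, c, h⟩ := hu.1
  choose i0 hi0 using ξ.cp.2.1
  let p0 : (j : J) → io j × Fin (d j + 1) := fun j => (i0 j, Fin.last _)
  have hi := (indep_gen hu (p0 := p0) h hi0).2
  by_cases hp : (i, (⟨l, Nat.lt_succ_of_le hl⟩ : Fin (d j + 1))) = p0 j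
  · have := hi0 j
    change (ξ.f j (p0 j).1).coeff (p0 j).2 ≠ 0 at this
    rwa [← hp] at this
  · exact fun h0 => hi.ne_zero (.inl ⟨j, ⟨_, hp⟩⟩) (by simp [gen, h0])

theorem univ_x {ξ : Dat io d M K} (hu : ξ.Univ) {a b c : M} (h : Nm3 ξ a b c) {q : M}
    (hq : q ≠ a ∧ q ≠ b ∧ q ≠ c) : ∃ t, ξ.x q = some t ∧ Transcendental ℂ t := by
  choose i0 hi0 using ξ.cp.2.1
  have hi := (indep_gen hu (p0 := fun j => (i0 j, Fin.last _)) h hi0).2.transcendental (.inr ⟨q, hq⟩)
  rcases hx : ξ.x q with _ | t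
  · exact absurd (by simpa [gen, hx] using isAlgebraic_zero) hi
  · exact ⟨t, rfl, by simpa [gen, hx] using hi⟩

/-- the marked points of the universal datum are distinct -/
theorem univ_inj {ξ : Dat io d M K} (hu : ξ.Univ) : Function.Injective ξ.x := by
  obtain ⟨a, b, c, h⟩ := hu.1
  choose i0 hi0 using ξ.cp.2.1
  have hi := (indep_gen hu (p0 := fun j => (i0 j, Fin.last _)) h hi0).2
  have key : ∀ {p q : M}, (q ≠ a ∧ q ≠ b ∧ q ≠ c) → ξ.x p = ξ.x q → p = q := by
    intro p q hq e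
    obtain ⟨t, ht, htr⟩ := univ_x hu h hq
    have hp : p ≠ a ∧ p ≠ b ∧ p ≠ c := by
      refine ⟨?_, ?_, ?_⟩ <;> rintro rfl
      · rw [h.1, ht] at e; cases e
      · rw [h.2.1, ht] at e; cases e; exact htr isAlgebraic_zero
      · rw [h.2.2, ht] at e; cases e; exact htr isAlgebraic_one
    have := hi.injective (a₁ := .inr ⟨p, hp⟩) (a₂ := .inr ⟨q, hq⟩) (by simp [gen, e])
    simpa using this
  intro p q e
  by_cases hq : q ≠ a ∧ q ≠ b ∧ q ≠ c
  · exact key hq e
  by_cases hp : p ≠ a ∧ p ≠ b ∧ p ≠ c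
  · exact (key hp e.symm).symm
  obtain ⟨h1, h2, h3⟩ := h
  simp only [not_and_or, not_not] at hp hq
  rcases hp with rfl | rfl | rfl <;> rcases hq with rfl | rfl | rfl <;> simp_all

/-- a normalised datum equivalent to a universal one is universal -/
theorem univ_of_eqv {ξ η : Dat io d M K} (hu : ξ.Univ) (h : ξ.Eqv η) {a b c : M}
    (h1 : Nm3 η a b c) : η.Univ := by
  obtain ⟨a', b', c', h'⟩ := hu.1
  exact ⟨⟨a, b, c, h1⟩, top_le_iff.mp (hu.2.1 ▸ crd_le_of_eqv h h'), hu.2.2⟩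

/-- a universal datum can be normalised at any three marks -/
theorem univ_nm3 {ξ : Dat io d M K} (hu : ξ.Univ) {a b c : M} (hab : a ≠ b) (hac : a ≠ c)
    (hbc : b ≠ c) : ∃ η, ξ.Eqv η ∧ Nm3 η a b c ∧ η.Univ := by
  obtain ⟨η, h1, h2⟩ := exists_nm3 ξ ((univ_inj hu).ne hab) ((univ_inj hu).ne hac)
    ((univ_inj hu).ne hbc)
  exact ⟨η, h1, h2, univ_of_eqv hu h1 h2⟩

theorem exists_equiv_of_indep {ι : Type} {x : ι → K} {y : ι → L} (hx : AlgebraicIndependent ℂ x)
    (hy : AlgebraicIndependent ℂ y) (h1 : IntermediateField.adjoin ℂ (Set.range x) = ⊤)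
    (h2 : IntermediateField.adjoin ℂ (Set.range y) = ⊤) : ∃ e : K ≃ₐ[ℂ] L, ∀ i, e (x i) = y i := by
  let ex := (hx.aevalEquivField.trans (IntermediateField.equivOfEq h1)).trans
    IntermediateField.topEquiv
  let ey := (hy.aevalEquivField.trans (IntermediateField.equivOfEq h2)).trans
    IntermediateField.topEquiv
  have e1 : ∀ i, ex (algebraMap _ _ (MvPolynomial.X i : MvPolynomial ι ℂ)) = x i := fun i =>
    (hx.aevalEquivField_algebraMap_apply_coe _).trans (MvPolynomial.aeval_X _ _)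
  have e2 : ∀ i, ey (algebraMap _ _ (MvPolynomial.X i : MvPolynomial ι ℂ)) = y i := fun i =>
    (hy.aevalEquivField_algebraMap_apply_coe _).trans (MvPolynomial.aeval_X _ _)
  exact ⟨ex.symm.trans ey, fun i => by rw [AlgEquiv.trans_apply, ← e1, ex.symm_apply_apply, e2]⟩

/-- uniqueness of the universal datum -/
theorem univ_unique {ξ : Dat io d M K} {η : Dat io d M L} (hu : ξ.Univ) (hv : η.Univ) :
    ∃ e : K ≃ₐ[ℂ] L, (ξ.map (e : K →ₐ[ℂ] L)).Eqv η := by
  obtain ⟨a, b, c, h⟩ := hv.1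
  obtain ⟨ξ', h1, h2, hu'⟩ := univ_nm3 hu (Nm3.ne h).1 (Nm3.ne h).2.1 (Nm3.ne h).2.2
  choose i0 hi0 using η.cp.2.1
  let p0 : (j : J) → io j × Fin (d j + 1) := fun j => (i0 j, Fin.last _)
  have hi1 : ∀ j, (ξ'.f j (i0 j)).coeff (d j) ≠ 0 := fun j => univ_coeff_ne hu' j _ le_rfl
  obtain ⟨g1, g2⟩ := indep_gen hu' (p0 := p0) h2 hi1
  obtain ⟨g3, g4⟩ := indep_gen hv (p0 := p0) h hi0
  obtain ⟨e, he⟩ := exists_equiv_of_indep g2 g4 g1 g3
  refine ⟨e, eqv_trans (eqv_map h1 _) (eqv_of_scl (s := fun j => (η.f j (i0 j)).coeff (d j) /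
    e ((ξ'.f j (i0 j)).coeff (d j))) (funext fun q => ?_)
    (fun j => div_ne_zero (hi0 j) ((_root_.map_ne_zero e).2 (hi1 j))) fun j i => ?_)⟩
  · simp only [Dat.map]
    by_cases hq : q ≠ a ∧ q ≠ b ∧ q ≠ c
    · obtain ⟨t, ht, -⟩ := univ_x hu' h2 hq
      obtain ⟨t', ht', -⟩ := univ_x hv h hq
      have := he (.inr ⟨q, hq⟩)
      simp only [gen, ht, ht', Option.getD_some] at this
      simp [ht, ht', this]
    · simp only [not_and_or, not_not] at hq
      rcases hq with rfl | rfl | rfl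
      · rw [h.1, h2.1]; rfl
      · rw [h.2.1, h2.2.1]; simp
      · rw [h.2.2, h2.2.2]; simp
  · ext l
    have hne := (_root_.map_ne_zero e).2 (hi1 j)
    simp only [Dat.map, coeff_C_mul, coeff_map, RingHom.coe_coe, AlgEquiv.coe_toAlgHom]
    by_cases hl : l < d j + 1
    · by_cases hp : (i, (⟨l, hl⟩ : Fin (d j + 1))) = p0 j
      · obtain ⟨rfl, e2⟩ := Prod.mk.inj hp
        obtain rfl : l = d j := congrArg Fin.val e2
        field_simp
      · have := he (.inl ⟨j, ⟨_, hp⟩⟩)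
        simp only [gen, map_div₀, p0, Fin.val_last] at this
        rw [div_eq_div_iff hne (hi0 j)] at this
        field_simp
        linear_combination -this
    · rw [coeff_eq_zero_of_natDegree_lt (lt_of_le_of_lt (η.cp.1 j i) (by omega)),
        coeff_eq_zero_of_natDegree_lt (lt_of_le_of_lt (ξ'.cp.1 j i) (by omega))]
      simp

theorem univ_card {ξ : Dat io d M K} (hu : ξ.Univ) : 3 ≤ Fintype.card M := by
  classical
  obtain ⟨a, b, c, h⟩ := hu.1
  have h3 : ({a, b, c} : Finset M).card = 3 :=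
    Finset.card_eq_three.mpr ⟨a, b, c, (Nm3.ne h).1, (Nm3.ne h).2.1, (Nm3.ne h).2.2, rfl⟩
  exact h3 ▸ Finset.card_le_univ _

theorem univ_essFT {ξ : Dat io d M K} (hu : ξ.Univ) : Algebra.EssFiniteType ℂ K := by
  obtain ⟨a, b, c, h⟩ := hu.1
  choose i0 hi0 using ξ.cp.2.1
  rw [← IntermediateField.fg_top_iff,
    ← (indep_gen hu (p0 := fun j => (i0 j, Fin.last _)) h hi0).1]
  exact IntermediateField.fg_adjoin_of_finite (Set.finite_range _)


theorem univ_res_equiv {M' : Type} [Fintype M'] {ξ : Dat io d M K} (hu : ξ.Univ) (e : M' ≃ M) :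
    (ξ.res e).Univ := by
  obtain ⟨⟨a, b, c, h1, h2, h3⟩, h4, h5⟩ := hu
  refine ⟨⟨e.symm a, e.symm b, e.symm c, by simpa [Dat.res] using h1, by simpa [Dat.res] using h2,
    by simpa [Dat.res] using h3⟩, ?_, by rw [h5, Fintype.card_congr e]⟩
  rw [← h4]; congr 1
  ext t
  simp only [Dat.crd, Dat.res, Set.mem_ofPred_eq]
  exact or_congr Iff.rfl (e.exists_congr_right (q := fun q => ξ.x q = some t))

/-! ### existence -/

section Ex
variable (p0 : (j : J) → io j × Fin (d j + 1)) (a b c : M) {R : Type} [CommRing R]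

/-- coefficients of the model datum -/
def cf (G : Ix p0 a b c → R) (j : J) (p : io j × Fin (d j + 1)) : R :=
  if h : p = p0 j then 1 else G (.inl ⟨j, ⟨p, h⟩⟩)

/-- forms of the model datum -/
def fm (G : Ix p0 a b c → R) (j : J) (i : io j) : R[X] :=
  ∑ l : Fin (d j + 1), monomial l (cf p0 a b c G j (i, l))

theorem coeff_fm (G : Ix p0 a b c → R) (j : J) (i : io j) (l : Fin (d j + 1)) :
    (fm p0 a b c G j i).coeff l = cf p0 a b c G j (i, l) := by
  simp [fm, coeff_monomial, Fin.val_inj]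

theorem natDegree_fm (G : Ix p0 a b c → R) (j : J) (i : io j) :
    (fm p0 a b c G j i).natDegree ≤ d j :=
  natDegree_sum_le_of_forall_le _ _ fun l _ => (natDegree_monomial_le _).trans (Nat.lt_succ_iff.mp l.2)

theorem map_fm {S : Type} [CommRing S] (φ : R →+* S) (G : Ix p0 a b c → R) (j : J) (i : io j) :
    (fm p0 a b c G j i).map φ = fm p0 a b c (φ ∘ G) j i := by
  simp only [fm, Polynomial.map_sum, map_monomial, cf]
  refine Finset.sum_congr rfl fun l _ => ?_
  split_ifs <;> simp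

end Ex

/-- existence of the universal datum -/
theorem exists_univ' (hio : ∀ j, Nonempty (io j) ∧ (d j = 0 ∨ Nontrivial (io j)))
    (hM : 3 ≤ Fintype.card M) : ∃ (K : Type) (_ : Field K) (_ : Algebra ℂ K)
      (_ : Algebra.EssFiniteType ℂ K) (ξ : Dat io d M K), ξ.Univ := by
  classical
  obtain ⟨a, b, c, hab, hac, hbc⟩ := Fintype.two_lt_card_iff.mp hM
  let i0 : ∀ j, io j := fun j => (hio j).1.some
  let p0 : (j : J) → io j × Fin (d j + 1) := fun j => (i0 j, Fin.last _)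
  let R := MvPolynomial (Ix p0 a b c) ℂ
  let K := FractionRing R
  let G : Ix p0 a b c → K := algebraMap R K ∘ MvPolynomial.X
  have hlead : ∀ {S : Type} [CommRing S] (H : Ix p0 a b c → S) (j : J),
      (fm p0 a b c H j (i0 j)).coeff (d j) = 1 := fun H j =>
    (coeff_fm p0 a b c H j (i0 j) (Fin.last _)).trans (dif_pos rfl)
  have hcp : Cp d (fm p0 a b c G) := by
    refine ⟨natDegree_fm p0 a b c G, fun j => ⟨i0 j, by rw [hlead]; exact one_ne_zero⟩, fun j => ?_⟩
    by_cases hd : d j = 0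
    · refine Ideal.eq_top_of_isUnit_mem _ (Ideal.subset_span ⟨i0 j, rfl⟩) ?_
      have h1 := natDegree_fm p0 a b c G j (i0 j)
      have h2 := hlead G j
      rw [hd] at h1 h2
      rw [eq_C_of_natDegree_le_zero h1, h2]; simp
    · have := ((hio j).2.resolve_left hd)
      obtain ⟨i1, hi1⟩ := exists_ne (i0 j)
      obtain ⟨p, q, -, -, e⟩ := exists_mul_add_mul_eq_C_resultant _ _
        (natDegree_fm p0 a b c G j (i0 j)) (natDegree_fm p0 a b c G j i1) (Or.inl hd)
      refine Ideal.eq_top_of_isUnit_mem _ (e ▸ Ideal.add_mem _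
        (Ideal.mul_mem_right _ _ (Ideal.subset_span (Set.mem_range_self (i0 j))))
        (Ideal.mul_mem_right _ _ (Ideal.subset_span (Set.mem_range_self i1))))
        (isUnit_C.mpr (Ne.isUnit ?_))
      rw [← map_fm, ← map_fm, resultant_map_map]
      refine (map_ne_zero_iff _ (IsFractionRing.injective R K)).mpr fun h0 => ?_
      let v : Ix p0 a b c → ℂ := fun x => if x = .inl ⟨j, ⟨(i1, 0), fun h => hi1 (Prod.mk.inj h).1⟩⟩
        then 1 else 0
      have h1 := congrArg (MvPolynomial.eval v) h0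
      rw [← resultant_map_map, map_fm, map_fm, map_zero] at h1
      have h2 : fm p0 a b c (MvPolynomial.eval v ∘ MvPolynomial.X) j i1 = 1 := by
        rw [fm, Finset.sum_eq_single 0]
        · simp [cf, v, p0, hi1]
        · intro l _ hl; simp [cf, v, p0, hi1, hl]
        · simp
      rw [h2, resultant_one_right, hlead] at h1
      simp at h1
  let x : M → Option K := fun q => if h : q ≠ a ∧ q ≠ b ∧ q ≠ c then some (G (.inr ⟨q, h⟩))
    else if q = a then none else if q = b then some 0 else some 1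
  have hG : IntermediateField.adjoin ℂ (Set.range G) = ⊤ := by
    rw [eq_top_iff]
    intro t _
    obtain ⟨r, s, -, rfl⟩ := IsFractionRing.div_surjective (A := R) t
    have key : ∀ r : R, algebraMap R K r ∈ IntermediateField.adjoin ℂ (Set.range G) := by
      intro r
      induction r using MvPolynomial.induction_on with
      | C s => exact IntermediateField.algebraMap_mem _ s
      | add p q hp hq => rw [map_add]; exact add_mem hp hq
      | mul_X p n hp => rw [map_mul]; exact mul_mem hp (IntermediateField.subset_adjoin _ _ ⟨n, rfl⟩)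
    exact div_mem (key r) (key s)
  refine ⟨K, inferInstance, inferInstance, inferInstance, ⟨fm p0 a b c G, x, hcp⟩,
    ⟨a, b, c, by simp [x], by simp [x, hab.symm], by simp [x, hac.symm, hbc.symm]⟩, ?_, ?_⟩
  · rw [eq_top_iff, ← hG]
    refine IntermediateField.adjoin.mono _ _ _ ?_
    rintro _ ⟨⟨j, p, hp⟩ | ⟨q, hq⟩, rfl⟩
    · refine Or.inl ⟨j, p.1, i0 j, p.2, d j, ?_⟩
      simp only
      rw [hlead, coeff_fm, div_one, cf, dif_neg hp]
    · exact Or.inr ⟨q, by simp only [x]; rw [dif_pos hq]⟩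
  · have h1 := trdeg_add_eq ℂ R (A := K)
    have := IsLocalization.isAlgebraic K (nonZeroDivisors R)
    rw [MvPolynomial.trdeg_of_isDomain, trdeg_eq_zero, add_zero] at h1
    rw [← h1, ← card_Ix p0 hab hac hbc, Nat.card, Cardinal.cast_toNat_of_lt_aleph0
      (Cardinal.lt_aleph0_of_finite _), Cardinal.lift_id]

theorem exists_univ (hio : ∀ j, Nontrivial (io j)) (hM : 3 ≤ Fintype.card M) :
    ∃ (K : Type) (_ : Field K) (_ : Algebra ℂ K) (_ : Algebra.EssFiniteType ℂ K)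
      (ξ : Dat io d M K), ξ.Univ :=
  exists_univ' (fun j => ⟨(hio j).to_nonempty, Or.inr (hio j)⟩) hM

theorem cp_cond {f : (j : J) → io j → K[X]} (h : Cp d f) (j : J) :
    Nonempty (io j) ∧ (d j = 0 ∨ Nontrivial (io j)) := by
  obtain ⟨i, hi⟩ := h.2.1 j
  refine ⟨⟨i⟩, ?_⟩
  rcases subsingleton_or_nontrivial (io j) with hs | hs
  · left
    have : Set.range (f j) = {f j i} := by
      ext g; simp only [Set.mem_range, Set.mem_singleton_iff]
      exact ⟨fun ⟨i', e⟩ => by rw [← e, Subsingleton.elim i' i], fun e => ⟨i, e.symm⟩⟩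
    have hu := h.2.2 j
    rw [this, Ideal.span_singleton_eq_top] at hu
    have := le_natDegree_of_ne_zero hi
    rwa [natDegree_eq_zero_of_isUnit hu, Nat.le_zero] at this
  · exact Or.inr hs

/-- if there is any datum of multidegree `d`, there is a universal one -/
theorem exists_univ_of_dat (η : Dat io d I L) (hM : 3 ≤ Fintype.card M) :
    ∃ (K : Type) (_ : Field K) (_ : Algebra ℂ K) (_ : Algebra.EssFiniteType ℂ K)
      (ξ : Dat io d M K), ξ.Univ := exists_univ' (cp_cond η.cp) hM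

end Crest.Agent.X262.Vb37
end
private theorem rz_dfc9cf886b : type_of% @_root_.Crest.Agent.X262.Vb37.gen.eq_1 := @_root_.Crest.Agent.X262.Vb37.gen.eq_1 -- L186
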